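import Crest.Agent.X212.Box46.Trk
import Crest.Agent.X212.Hel40.Bas
import Crest.Agent.X212.Orx52.Sw
import Crest.Agent.X212.Sym24.NF
import Crest.Agent.X212.Cyl58.Int
import Crest.Agent.X212.Sep15.Raw

-- ▼ part X212/Box46/Lev
section

/-!
# X212/Box46/Lev (helper46): regular levels are manifolds; product structure from a complete field
-/

set_option autoImplicit false
set_option linter.unusedSectionVars false
set_option linter.style.haveILetI false

open Set Filter Topology Function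
open scoped ContDiff Manifold
open Crest.Agent.X212.Dr59 Crest.Agent.X212.Cyl58 Crest.Agent.X212.Flo26
open Crest.Agent.X212.Sep15 (EE IR CM Box)

noncomputable section

namespace Crest.Agent.X212.Box46

variable {E : Type} [NormedAddCommGroup E] [NormedSpace ℝ E] [FiniteDimensional ℝ E]
  {H : Type*} [TopologicalSpace H] {I : ModelWithCorners ℝ E H} [I.Boundaryless]
  {N : Type} [TopologicalSpace N] [ChartedSpace H N] [IsManifold I ∞ N] {n : ℕ}

/-- charts adapted to the zero level of `h` -/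
structure LD (I : ModelWithCorners ℝ E H) (n : ℕ) (h : N → ℝ) where
  k : {y // h y = 0} → PartialDiffeomorph I (IR n) N (EE n × ℝ) ∞
  mem : ∀ x, x.1 ∈ (k x).source
  snd : ∀ x, ∀ y ∈ (k x).source, (k x y).2 = h y

theorem exists_ld (hn : Module.finrank ℝ E = n + 1) {h : N → ℝ} (hh : ContMDiff I 𝓘(ℝ, ℝ) ∞ h)
    (h1 : ∀ y, h y = 0 → ∃ u, mf I 𝓘(ℝ, ℝ) h y u = 1) : Nonempty (LD I n h) := by
  have key : ∀ x : {y // h y = 0}, ∃ k : PartialDiffeomorph I (IR n) N (EE n × ℝ) ∞,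
      x.1 ∈ k.source ∧ ∀ y ∈ k.source, (k y).2 = h y := by
    rintro ⟨x, hx⟩
    obtain ⟨u, hu⟩ := h1 x hx
    set l : E →ₗ[ℝ] ℝ := (mf I 𝓘(ℝ, ℝ) h x : E →ₗ[ℝ] ℝ) with hl
    have lu : l u = 1 := hu
    have hk : Module.finrank ℝ (LinearMap.ker l) = Module.finrank ℝ (EE n) := by
      have h2 := Module.Dual.finrank_ker_add_one_of_ne_zero (f := l) fun h0 => by simp [h0] at lu
      simp only [finrank_euclideanSpace, Fintype.card_fin]
      omega
    let L := LinearEquiv.ofFinrankEq _ _ hk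
    let A : E →ₗ[ℝ] EE n := L.toLinearMap ∘ₗ (LinearMap.id - l.smulRight u).codRestrict
      (LinearMap.ker l) fun w => by simp [lu]
    let A' := LinearMap.toContinuousLinearMap A
    have s1 : ContMDiffOn I (𝓡 n) ∞ (fun y => A' (extChartAt I x y)) (chartAt H x).source :=
      A'.contMDiff.comp_contMDiffOn contMDiffOn_extChartAt
    have d1 : HasMFDerivAt I (𝓡 n) (fun y => A' (extChartAt I x y)) x A' := by
      have := (A'.hasMFDerivAt (x := extChartAt I x x)).comp x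
        (mdifferentiableAt_extChartAt (I := I) (mem_chart_source H x)).hasMFDerivAt
      rw [mfderiv_extChartAt_self] at this
      exact this
    have ld : IsLocalDiffeomorphAt I (IR n) ∞ (fun y => (A' (extChartAt I x y), h y)) x := by
      refine Glue52.ld_of_injective_mfderiv (by simp [hn]) (chartAt H x).open_source
        (mem_chart_source H x) (s1.prodMk hh.contMDiffOn) ?_
      rw [(d1.prodMk ((hh x).mdifferentiableAt (by simp)).hasMFDerivAt).mfderiv]
      refine (injective_iff_map_eq_zero _).2 fun w hw => ?_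
      have h2 : A w = 0 := congrArg Prod.fst hw
      have h3 : l w = 0 := congrArg Prod.snd hw
      have h4 := congrArg Subtype.val (L.map_eq_zero_iff.1 h2)
      exact (by simpa [h3] using h4 : @Eq E w 0)
    obtain ⟨k, h2, h3⟩ := ld
    exact ⟨k, h2, fun y hy => by rw [← h3 hy]⟩
  choose k h2 h3 using key
  exact ⟨⟨k, h2, h3⟩⟩

namespace LD

variable {h : N → ℝ} (D : LD I n h)

/-- the level -/
def M (_ : LD I n h) : Type := {y // h y = 0}

instance : TopologicalSpace D.M := inferInstanceAs (TopologicalSpace {y // h y = 0})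

/-- the inclusion -/
def ι (x : D.M) : N := x.1

theorem emb : IsEmbedding D.ι := IsEmbedding.subtypeVal

theorem zero (x : D.M) {u : EE n} (hu : (u, (0 : ℝ)) ∈ (D.k x).target) :
    h ((D.k x).symm (u, 0)) = 0 :=
  (D.snd x _ ((D.k x).map_target hu)).symm.trans (congrArg Prod.snd ((D.k x).right_inv hu))

theorem eta (x y : D.M) (hy : D.ι y ∈ (D.k x).source) : ((D.k x (D.ι y)).1, (0 : ℝ)) = D.k x (D.ι y) :=
  Prod.ext rfl ((D.snd x _ hy).trans y.2).symm

open Classical in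
/-- the chart of the level -/
def ch (x : D.M) : OpenPartialHomeomorph D.M (EE n) where
  toFun y := (D.k x (D.ι y)).1
  invFun u := if hu : (u, (0 : ℝ)) ∈ (D.k x).target then ⟨_, D.zero x hu⟩ else x
  source := D.ι ⁻¹' (D.k x).source
  target := (fun u => (u, (0 : ℝ))) ⁻¹' (D.k x).target
  map_source' y hy := by rw [mem_preimage, D.eta x y hy]; exact (D.k x).map_source hy
  map_target' u hu := by
    rw [mem_preimage, dif_pos (mem_preimage.1 hu)]; exact (D.k x).map_target hu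
  left_inv' y hy := by
    have h1 : ((D.k x (D.ι y)).1, (0 : ℝ)) ∈ (D.k x).target := by
      rw [D.eta x y hy]; exact (D.k x).map_source hy
    rw [dif_pos h1]
    exact Subtype.ext ((congrArg (D.k x).symm (D.eta x y hy)).trans ((D.k x).left_inv hy))
  right_inv' u hu := by
    rw [dif_pos (mem_preimage.1 hu)]; exact congrArg Prod.fst ((D.k x).right_inv hu)
  open_source := (D.k x).open_source.preimage D.emb.continuous
  open_target := (D.k x).open_target.preimage (by fun_prop)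
  continuousOn_toFun := continuous_fst.comp_continuousOn
    ((D.k x).contMDiffOn_toFun.continuousOn.comp D.emb.continuous.continuousOn fun _ hy => hy)
  continuousOn_invFun := D.emb.isInducing.continuousOn_iff.2
    (((D.k x).contMDiffOn_invFun.continuousOn.comp (f := fun u => (u, (0 : ℝ))) (by fun_prop)
      fun _ hu => hu).congr fun u hu => congrArg D.ι (dif_pos (mem_preimage.1 hu)))

theorem ι_symm (x : D.M) {u : EE n} (hu : u ∈ (D.ch x).target) :
    D.ι ((D.ch x).symm u) = (D.k x).symm (u, 0) := congrArg D.ι (dif_pos (mem_preimage.1 hu))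

instance : ChartedSpace (EE n) D.M where
  atlas := range D.ch
  chartAt := D.ch
  mem_chart_source x := D.mem x
  chart_mem_atlas x := mem_range_self x

instance : IsManifold (𝓡 n) ∞ D.M := isManifold_of_contDiffOn _ _ _ (by
  rintro _ _ ⟨x, rfl⟩ ⟨y, rfl⟩
  simp only [modelWithCornersSelf_coe, modelWithCornersSelf_coe_symm, preimage_id, range_id,
    inter_univ, id_comp, comp_id]
  have h1 : ContMDiffOn (𝓡 n) I ∞ (fun u => (D.k x).symm (u, (0 : ℝ))) (D.ch x).target :=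
    (D.k x).contMDiffOn_invFun.comp (contMDiff_id.prodMk contMDiff_const).contMDiffOn fun _ hu => hu
  refine contMDiffOn_iff_contDiffOn.1 ((contMDiff_fst.comp_contMDiffOn
    ((D.k y).contMDiffOn_toFun.comp (h1.mono inter_subset_left) fun u hu => ?_)).congr fun u hu => ?_)
  · rw [mem_preimage, ← D.ι_symm x hu.1]; exact hu.2
  · exact congrArg (fun z => (D.k y z).1) (D.ι_symm x hu.1))

theorem sm_ι : ContMDiff (𝓡 n) I ∞ D.ι := fun x => by
  have hx : (D.ch x).source ∈ 𝓝 x := (D.ch x).open_source.mem_nhds (D.mem x)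
  have h1 : ContMDiffAt (𝓡 n) (𝓡 n) ∞ (D.ch x) x :=
    (contMDiffOn_chart (I := 𝓡 n) (x := x)).contMDiffAt hx
  refine (((D.k x).contMDiffOn_invFun.contMDiffAt ((D.k x).open_target.mem_nhds
    ((D.ch x).map_source (D.mem x)))).comp x (h1.prodMk contMDiffAt_const)).congr_of_eventuallyEq ?_
  filter_upwards [hx] with y hy
  exact ((congrArg (D.k x).symm (D.eta x y hy)).trans ((D.k x).left_inv hy)).symm

theorem sm_to {E' H' P : Type*} [NormedAddCommGroup E'] [NormedSpace ℝ E'] [TopologicalSpace H']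
    {K : ModelWithCorners ℝ E' H'} [TopologicalSpace P] [ChartedSpace H' P] {f : P → D.M} {p : P}
    (hf : ContMDiffAt K I ∞ (D.ι ∘ f) p) : ContMDiffAt K (𝓡 n) ∞ f p := by
  have c : ContinuousAt f p := D.emb.isInducing.continuousAt_iff.2 hf.continuousAt
  have h1 : ContMDiffAt (𝓡 n) (𝓡 n) ∞ (D.ch (f p)).symm (D.ch (f p) (f p)) :=
    (contMDiffOn_chart_symm (I := 𝓡 n) (x := f p)).contMDiffAt
      ((D.ch (f p)).open_target.mem_nhds ((D.ch (f p)).map_source (D.mem _)))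
  have h2 := (((D.k (f p)).contMDiffOn_toFun.contMDiffAt ((D.k (f p)).open_source.mem_nhds
    (D.mem _))).comp p hf).fst
  refine (h1.comp p h2).congr_of_eventuallyEq ?_
  filter_upwards [c.preimage_mem_nhds ((D.ch (f p)).open_source.mem_nhds (D.mem _))] with q hq
  exact ((D.ch (f p)).left_inv hq).symm

/-- a compact level as a closed manifold -/
def cm [T2Space N] (hc : IsCompact {y | h y = 0}) : CM n :=
  haveI : T2Space D.M := D.emb.t2Space
  haveI : CompactSpace D.M := isCompact_iff_compactSpace.1 hc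
  ⟨D.M⟩

end LD

/-- **product structure** from a field `w` with `dh (w) = 1` and a proper function `h` -/
theorem exists_prod [T2Space N] (hn : Module.finrank ℝ E = n + 1) {h : N → ℝ}
    (hh : ContMDiff I 𝓘(ℝ, ℝ) ∞ h) {w : (y : N) → TangentSpace I y} (hw : SmV I w)
    (h1 : ∀ y, mf I 𝓘(ℝ, ℝ) h y (w y) = 1) (hp : ∀ a b, IsCompact (h ⁻¹' Icc a b)) :
    ∃ (R : CM n) (b : (R × ℝ) ≃ₘ^∞⟮IR n, I⟯ N), (∀ p, h (b p) = p.2) ∧ Cpl w ∧
      ∀ x s, b (x, s) = fl w s (b (x, 0)) := by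
  haveI : CompleteSpace E := FiniteDimensional.complete ℝ E
  obtain ⟨D⟩ := exists_ld hn hh fun y _ => ⟨_, h1 y⟩
  have h2 : ∀ t y, (t, y) ∈ dom w → h (fl w t y) = h y + t := fun t y hd => by
    simpa using comp_fl_eq hw hd (f := h) (c := 1) fun s _ =>
      ⟨(hh _).mdifferentiableAt (by simp), h1 _⟩
  have hc : Cpl w := fun p => mem_dom_of_compact hw (hp (h p.2 - |p.1|) (h p.2 + |p.1|))
    fun s hs hd => by
      have := abs_le.1 ((abs_sub_left_of_mem_uIcc hs).trans_eq (congrArg _ (sub_zero _)))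
      rw [mem_preimage, h2 _ _ hd]
      constructor <;> linarith [this.1, this.2]
  have h3 : ∀ y, h (fl w (-h y) y) = 0 := fun y => by rw [h2 _ _ (hc _), add_neg_cancel]
  refine ⟨D.cm (by simpa [preimage] using hp 0 0), Glue52.diffeoOf (fun p => fl w p.2 (D.ι p.1))
    (fun y => (⟨_, h3 y⟩, h y)) ((hc.contMDiff hw).comp (contMDiff_snd.prodMk
      (D.sm_ι.comp contMDiff_fst))) (ContMDiff.prodMk (fun y => D.sm_to
        ((hc.contMDiff hw).comp (hh.neg.prodMk contMDiff_id) y)) hh) (fun p => ?_) fun y => ?_,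
    fun p => ?_, hc, fun x s => ?_⟩
  · have h4 : h (fl w p.2 (D.ι p.1)) = p.2 := by
      rw [h2 _ _ (hc _), show h (D.ι p.1) = 0 from p.1.2, zero_add]
    refine Prod.ext (Subtype.ext ?_) h4
    show fl w (-h (fl w p.2 (D.ι p.1))) (fl w p.2 (D.ι p.1)) = D.ι p.1
    rw [h4]; exact (neg_mem_dom hw (hc _)).2
  · show fl w (h y) (fl w (-h y) y) = y
    rw [← hc.add hw, add_neg_cancel, fl_zero hw]
  · show h (fl w p.2 (D.ι p.1)) = p.2
    rw [h2 _ _ (hc _), show h (D.ι p.1) = 0 from p.1.2, zero_add]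
  · show fl w s (D.ι x) = fl w s (fl w 0 (D.ι x))
    rw [fl_zero hw]

end Crest.Agent.X212.Box46
end
end

-- ▼ part X212/Box46/Box

/-!
# X212/Box46/Box (helper46): the box of a circle map, the mapping torus
-/

set_option autoImplicit false
set_option linter.unusedSectionVars false
set_option linter.style.haveILetI false

open Set Filter Topology Function
open scoped ContDiff Manifold
open Crest.Agent.R208.F Crest.Agent.X212.Dr59 Crest.Agent.X212.Int54 Crest.Agent.X212.Cyl58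
open Crest.Agent.X212.Flo26 (SmV fl)
open Crest.Agent.X212.Sep15 (EE IR CM Box slab px Rg)
open Crest.Agent.X212.Bb31 (Fm Cy Df)

noncomputable section

namespace Crest.Agent.X212.Box46

open Hel40

/-- the point `-1` of the circle -/
def npi : Circle := Circle.exp Real.pi

theorem coe_npi : (npi : ℂ) = -1 := by simp [npi]

theorem npi_npi (θ : Circle) : npi * (npi * θ) = θ := Circle.ext (by simp [coe_npi])

theorem npi_mul_eq {θ : Circle} : npi * θ = 1 ↔ (θ : ℂ) = -1 := by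
  rw [Circle.ext_iff, Circle.coe_mul, coe_npi, Circle.coe_one, neg_one_mul, neg_eq_iff_eq_neg]

theorem der_cayA (s : ℝ) :
    HasDerivAt (fun s : ℝ => Real.pi + 2 * Real.arctan s) (2 * (1 / (1 + s ^ 2))) s :=
  ((Real.hasDerivAt_arctan s).const_mul 2).const_add _

theorem oe_cay : IsOE 𝓘(ℝ, ℝ) (𝓡 1) cay := ⟨cay_inj, fun s => ld_comp (Glue52.ld_circleExp _)
  ((Up.of_hasDerivAt (fun _ _ => contDiff_cayA.contDiffAt) (fun s _ => der_cayA s)
    fun _ _ => by positivity).ld isOpen_univ (mem_univ s))⟩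

theorem exists_cay {θ : Circle} (h : θ ≠ 1) : ∃ s, cay s = θ := by
  have h1 := Circle.exp_arg (npi * θ)
  have h2 : Complex.arg (npi * θ : Circle) < Real.pi := (Complex.arg_le_pi _).lt_of_ne fun e => h (by
    rw [e] at h1
    exact (mul_eq_left.1 h1.symm :))
  refine ⟨Real.tan (Complex.arg (npi * θ : Circle) / 2), ?_⟩
  rw [cay, Real.arctan_tan (by linarith [Complex.neg_pi_lt_arg (npi * θ : Circle)]) (by linarith),
    Circle.exp_add, mul_div_cancel₀ _ two_ne_zero, h1]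
  exact npi_npi θ

theorem cay_inv {s : ℝ} (h : s ≠ 0) : cay (-s⁻¹) = npi * cay s := by
  rw [cay, cay, npi, ← Circle.exp_add, Real.arctan_neg, Circle.exp_eq_exp]
  rcases h.lt_or_gt with h | h
  · exact ⟨0, by rw [Real.arctan_inv_of_neg h]; push_cast; ring⟩
  · exact ⟨-1, by rw [Real.arctan_inv_of_pos h]; push_cast; ring⟩

/-- the orientation of the fibre of a box -/
theorem exists_oR {Y : CM 3} {R : CM 2} {o : Fm 3 Y} (ho : Ori (𝓡 3) o) {b : R × ℝ → Y}
    (hb : Box b) : ∃ oR : Fm 2 R, Ori (𝓡 2) oR ∧ Cy oR o b := by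
  have h1 := Orx52.ori_pm ho hb.loc
  have h2 : ∀ x, tp (EE 2 × ℝ) (pm (IR 2) (𝓡 3) b o (x, 0)) =
      Sym24.kap (EE 2) * tp (EE 2) (Sym24.nq (pm (IR 2) (𝓡 3) b o) x) := fun x => Sym24.tp_eq _
  have h3 : Ori (𝓡 2) (Sym24.nq (pm (IR 2) (𝓡 3) b o)) :=
    ⟨fun x => Sym24.smAt_nq (h1.sm _), fun x => right_ne_zero_of_mul (h2 x ▸ h1.ne _)⟩
  refine ⟨_, h3, fun p _ => Orx52.same_of_pt (s := {p.1} ×ˢ univ) (Orx52.oriOn h1 _)
    (Orx52.oriOn (Orx52.ori_cy h3) _) (isPreconnected_singleton.prod isPreconnected_univ)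
    (x := (p.1, 0)) ⟨rfl, trivial⟩ ?_ p ⟨rfl, trivial⟩⟩
  rw [Orx52.tp_cy, ← h2]
  exact mul_self_pos.2 (h1.ne _)

theorem box : BoxStmt := by
  intro Y o v Φ ho hv hΦ hp
  let U : TopologicalSpace.Opens Y := ⟨{y | Φ y ≠ 1}, isOpen_ne.preimage hΦ.continuous⟩
  have hι : IsOE (𝓡 3) (𝓡 3) (Subtype.val : U → Y) := isOE_val U
  choose h hh using fun y : U => exists_cay y.2
  have sh : ContMDiff (𝓡 3) 𝓘(ℝ, ℝ) ∞ h :=
    oe_cay.contMDiff_left ((hΦ.comp hι.contMDiff).congr hh)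
  have inv : ∀ y : U, (mfderiv (𝓡 3) (𝓡 3) Subtype.val y).IsInvertible := fun y =>
    ⟨(hι.loc y).mfderivToContinuousLinearEquiv (by simp), rfl⟩
  let v' := VectorField.mpullback (𝓡 3) (𝓡 3) (Subtype.val : U → Y) v
  have sv' : SmV (𝓡 3) v' := ContMDiff.mpullback_vectorField hv hι.contMDiff inv (by simp)
  have ev : ∀ y : U, mf (𝓡 3) (𝓡 3) Subtype.val y (v' y) = vv v y := fun y =>
    ((inv y).inverse_apply_eq.1 rfl).symm
  let d : U → ℝ := fun y => mf (𝓡 3) 𝓘(ℝ, ℝ) h y (v' y)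
  have sd : ContMDiff (𝓡 3) 𝓘(ℝ, ℝ) ∞ d :=
    (contMDiff_snd_tangentBundle_modelSpace ℝ 𝓘(ℝ, ℝ)).comp (sv'.tangent sh)
  have pd : ∀ y, 0 < d y := fun y => by
    have h1 : rt Φ v y = d y * (2 * (1 / (1 + h y ^ 2))) := by
      have h2 := dl_comp (hΦ y.1) ((hι.contMDiff y).mdifferentiableAt (by simp)) (v' y)
      rw [ev, show Φ ∘ Subtype.val = fun y => Circle.exp (Real.pi + 2 * Real.arctan (h y)) from
        funext fun y => (hh y).symm] at h2
      exact (h2.symm.trans (dl_exp ((contDiff_cayA.contMDiff.comp sh) y) _)).trans (congrArg (fun L : EE 3 →L[ℝ] ℝ => L (v' y))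
        ((der_cayA (h y)).hasFDerivAt.hasMFDerivAt.comp y
          ((sh y).mdifferentiableAt (by simp)).hasMFDerivAt).mfderiv)
    exact (pos_iff_pos_of_mul_pos (h1 ▸ hp y y.2)).2 (by positivity)
  have sw := sv'.smul (sd.inv₀ fun y => (pd y).ne')
  obtain ⟨R, b, b1, b2, b3⟩ := exists_prod (n := 2) (by simp) sh sw
    (fun y => (map_smul _ _ _).trans (inv_mul_cancel₀ (pd y).ne')) fun a b => by
      have : h ⁻¹' Icc a b = Subtype.val ⁻¹' (Φ ⁻¹' (cay '' Icc a b)) := by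
        ext y
        rw [mem_preimage, mem_preimage, mem_preimage, ← hh, cay_inj.mem_set_image]
      rw [this]
      refine IsInducing.subtypeVal.isCompact_preimage'
        ((isCompact_Icc.image oe_cay.continuous).isClosed.preimage hΦ.continuous).isCompact ?_
      rintro y ⟨s, -, hs⟩
      exact ⟨⟨y, fun e => cay_ne s (hs.trans e)⟩, rfl⟩
  have hb : Box (Subtype.val ∘ b) := hι.comp (IsOE.of_diffeo b)
  obtain ⟨oR, o1, o2⟩ := exists_oR ho hb
  refine ⟨R, oR, _, o1, hb, o2, ?_, fun p => by rw [← b1 p]; exact (hh _).symm, fun p =>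
    ⟨(d (b p))⁻¹, inv_pos.2 (pd _), ?_⟩⟩
  · rw [range_comp, (EquivLike.surjective b).range_eq, image_univ, Subtype.range_coe]; rfl
  · have h1 := mf_line (hasDerivAt_id p.2) ((hb.contMDiff (p.1, p.2)).mdifferentiableAt (by simp))
    have h2 := (Flo26.hasMFDerivAt_comp_fl sw (b2 (p.2, b (p.1, 0))) (J := 𝓡 3) (f := Subtype.val)
      ((hι.contMDiff _).mdifferentiableAt (by simp))).mfderiv
    have h3 : ∀ y : U, mf (𝓡 3) (𝓡 3) Subtype.val y ((d y)⁻¹ • v' y) = (d y)⁻¹ • vv v y := fun y =>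
      (map_smul (mf (𝓡 3) (𝓡 3) Subtype.val y) _ _).trans (congrArg _ (ev _))
    rw [one_smul] at h1
    refine h1.symm.trans ((congrArg (fun γ => mf 𝓘(ℝ, ℝ) (𝓡 3) γ p.2 1)
      (funext fun s => congrArg Subtype.val (b3 p.1 s))).trans
      ((congrArg (fun L : ℝ →L[ℝ] EE 3 => L 1) h2).trans ((one_smul ℝ _).trans ((h3 _).trans ?_))))
    rw [← b3]
    rfl

variable {Y : CM 3} {R R' : CM 2} {v : Vf Y}

/-- transition between two vertical boxes -/
theorem exists_trans {b : R × ℝ → Y} {b' : R' × ℝ → Y} (hb : Box b) (hb' : Box b') (hv : Vert v b)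
    (hv' : Vert v b') {S : Set ℝ} (hS : IsOpen S) (hc : OrdConnected S) {s₀ : ℝ} (h0 : s₀ ∈ S)
    {σ : ℝ → ℝ} (h : ∀ x, ∀ s ∈ S, ∃ y, b' (x, s) = b (y, σ s)) :
    ∃ α : R' → R, ContMDiff (𝓡 2) (𝓡 2) ∞ α ∧ ∀ x, ∀ s ∈ S, b' (x, s) = b (α x, σ s) := by
  choose α hα using fun x => h x s₀ h0
  refine ⟨α, contMDiff_fst.comp (hb.contMDiff_left (g := fun x => (α x, σ s₀))
    ((hb'.contMDiff.comp (contMDiff_id.prodMk contMDiff_const)).congr fun x => (hα x).symm)),
    fun x s hs => ?_⟩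
  obtain ⟨y, hy⟩ := h x s hs
  rw [hy, show α x = y from foot hb hv (γ := fun r => b' (x, r)) hS (fun r hr => ?_)
    (hc.uIcc_subset h0 hs) (hα x) hy]
  obtain ⟨z, hz⟩ := h x r hr
  obtain ⟨f, -, hf⟩ := vert_vv hv' (x, r)
  refine ⟨hb'.contMDiff.comp (contMDiff_const.prodMk contMDiff_id) r, ⟨_, hz.symm⟩, f, ?_⟩
  exact (mf_line (hasDerivAt_id r) ((hb'.contMDiff (x, r)).mdifferentiableAt (by simp))).trans
    ((one_smul ℝ _).trans hf)

/-- the boxes of `Φ` and of `-Φ` overlap along two slabs -/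
theorem exists_half {o : Fm 3 Y} {Φ : Y → Circle} {oR : Fm 2 R} {oR' : Fm 2 R'} {b : R × ℝ → Y}
    {b' : R' × ℝ → Y} (B : Bx o v Φ oR b) (B' : Bx o v (fun y => npi * Φ y) oR' b') {S S' : Set ℝ}
    (hS : IsOpen S) (hc : OrdConnected S) (hS' : IsOpen S') (hc' : OrdConnected S') {s₀ : ℝ}
    (h0 : s₀ ∈ S) (h0' : -s₀⁻¹ ∈ S') (n : 0 ∉ S) (n' : 0 ∉ S') :
    ∃ α : R' ≃ₘ^∞⟮𝓡 2, 𝓡 2⟯ R, ∀ x, ∀ s ∈ S, b' (x, s) = b (α x, -s⁻¹) := by
  have key : ∀ {R R' : CM 2} {Φ Φ' : Y → Circle} {oR : Fm 2 R} {oR' : Fm 2 R'} {b : R × ℝ → Y}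
      {b' : R' × ℝ → Y}, Bx o v Φ oR b → Bx o v Φ' oR' b' → (∀ y, Φ y = npi * Φ' y) →
      ∀ x s, s ≠ 0 → ∃ y, b' (x, s) = b (y, -s⁻¹) := fun B B' e x s hs => by
    have h1 := (e _).trans ((congrArg _ (B'.ang (x, s))).trans (cay_inv hs).symm)
    obtain ⟨p, hp⟩ := B.rg.ge fun h => cay_ne _ (h1.symm.trans h)
    exact ⟨p.1, hp.symm.trans (congrArg _ (Prod.ext rfl
      (cay_inj ((B.ang p).symm.trans (hp ▸ h1)))))⟩
  obtain ⟨α, a1, a2⟩ := exists_trans B.box B'.box B.vert B'.vert hS hc h0 fun x s hs =>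
    key B B' (fun y => (npi_npi _).symm) x s fun e => n (e ▸ hs)
  obtain ⟨β, b1, b2⟩ := exists_trans B'.box B.box B'.vert B.vert hS' hc' h0' fun x s hs =>
    key B' B (fun y => rfl) x s fun e => n' (e ▸ hs)
  have e : -(-s₀⁻¹)⁻¹ = s₀ := by simp
  refine ⟨Glue52.diffeoOf α β a1 b1 (fun x => ?_) fun x => ?_, a2⟩
  · have := (a2 x _ h0).trans (b2 _ _ h0')
    exact (congrArg Prod.fst (B'.box.inj this)).symm
  · have := b2 x _ h0'
    rw [e, a2 _ _ h0] at this
    exact (congrArg Prod.fst (B.box.inj this)).symm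

theorem up_inv : Up (fun s : ℝ => -s⁻¹) {0}ᶜ := Up.of_hasDerivAt
  (fun _ hs => (contDiffAt_id.inv hs).neg) (fun _ hs => (hasDerivAt_inv hs).neg)
  fun s hs => by have : s ≠ 0 := hs; rw [neg_neg]; positivity

theorem base : BaseStmt := by
  intro Y R o v Φ oR b hB B hR
  have sΦ : SC fun y => npi * Φ y := contMDiff_const.mul hB.smΦ
  obtain ⟨R', oR', b', B'⟩ := box Y o v _ hB.ori hB.smv sΦ fun y _ => by
    have := dl_mul (I := 𝓡 3) (g := fun _ => npi) contMDiffAt_const (hB.smΦ y)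
    rw [dl_const, zero_add] at this
    exact (hB.pos y id).trans_eq (LinearMap.congr_fun this _).symm
  obtain ⟨α, hα⟩ := exists_half B B' (isOpen_Ioi (a := 0)) ordConnected_Ioi (isOpen_Iio (a := 0))
    ordConnected_Iio (s₀ := 1) (by simp) (by simp) (by simp) (by simp)
  obtain ⟨β, hβ⟩ := exists_half B B' (isOpen_Iio (a := 0)) ordConnected_Iio (isOpen_Ioi (a := 0))
    ordConnected_Ioi (s₀ := -1) (by simp) (by simp) (by simp) (by simp)
  obtain ⟨Y₀, ⟨f⟩⟩ := Sep15.exists_prod R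
  obtain ⟨x₀, -⟩ := hR.nonempty
  haveI : Nonempty R := ⟨x₀⟩
  let g : Df R := α.symm.trans β
  have oid : IsOE (𝓡 2) (𝓡 2) (id : R → R) := ⟨injective_id, ld_id⟩
  have onp : IsOE (𝓡 1) (𝓡 1) (npi * ·) := IsOE.of_diffeo (Glue52.diffeoOf (npi * ·) (npi * ·)
    (contMDiff_const.mul contMDiff_id) (contMDiff_const.mul contMDiff_id) npi_npi npi_npi)
  have h0 : Box (f ∘ Prod.map id cay) := (IsOE.of_diffeo f).comp (oid.prodMap oe_cay)
  have j0 : Box (f ∘ Prod.map id ((npi * ·) ∘ cay)) :=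
    (IsOE.of_diffeo f).comp (oid.prodMap (onp.comp oe_cay))
  have j1 : Box (b' ∘ Prod.map α.symm id) :=
    B'.box.comp ((IsOE.of_diffeo α.symm).prodMap ⟨injective_id, ld_id⟩)
  have lo : ∀ x, ∀ s > 0, (b' ∘ Prod.map α.symm id) (x, s) = b (x, -s⁻¹) := fun x s hs =>
    (hα _ s hs).trans (by rw [α.apply_symm_apply])
  have hi : ∀ x, ∀ s < 0, (b' ∘ Prod.map α.symm id) (x, s) = b (g x, -s⁻¹) := fun x s hs => hβ _ s hs
  have e0 : ∀ p : R × ℝ, p.2 ≠ 0 → (f ∘ Prod.map id cay) p =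
      (f ∘ Prod.map id ((npi * ·) ∘ cay)) (p.1, -p.2⁻¹) := fun p hp =>
    congrArg f (Prod.ext rfl (by simp only [Prod.map, comp]; rw [cay_inv hp, npi_npi]))
  have c0 : npi * cay 0 = 1 := npi_mul_eq.2 (cay_eq_neg.2 rfl)
  have ee : ∀ s : ℝ, -(-s⁻¹)⁻¹ = s := fun s => by simp
  have hg : Bb31.Pos oR g := by
    have oc := Orx52.ori_cy B.ori
    have ld : ∀ {k : R → R}, IsLocalDiffeomorph (𝓡 2) (𝓡 2) ∞ k → ∀ p : R × ℝ, p.2 ≠ 0 →
        IsLocalDiffeomorphAt (IR 2) (IR 2) ∞ (Prod.map k fun s : ℝ => -s⁻¹) p := fun hk p hp =>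
      ld_prodMap (hk _) (up_inv.ld isOpen_compl_singleton hp)
    have cy : ∀ {k : R → R} {a : Fm 2 R}, IsLocalDiffeomorph (𝓡 2) (𝓡 2) ∞ k →
        Orx52.Pos (𝓡 2) (𝓡 2) k univ oR a → Orx52.Pos (IR 2) (IR 2) (Prod.map k fun s : ℝ => -s⁻¹)
          (univ ×ˢ {0}ᶜ) (Orx52.cy oR) (Orx52.cy a) := fun hk h =>
      h.cy (fun y _ => hk y) (fun _ => up_inv.hasDerivAt) fun s hs => (up_inv s hs).2
    have pb : Orx52.Pos (IR 2) (𝓡 3) b univ (Orx52.cy oR) o := B.cy
    have p1 := (pb.comp ((cy ld_id (Orx52.pos_id.2 (Orx52.oriOn B.ori _).same)).mono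
      (s' := univ ×ˢ Ioi 0) fun p hp => ⟨trivial, ne_of_gt hp.2⟩) (fun p _ => B.box.loc p)
      (fun p hp => ld ld_id p (ne_of_gt hp.2)) (mapsTo_univ _ _)).congr
      (isOpen_univ.prod isOpen_Ioi) fun p hp => lo p.1 p.2 hp.2
    have p2 := Orx52.pos_of_pt (hR.isPreconnected.prod isPreconnected_univ) (Orx52.oriOn oc _)
      (Orx52.oriOn hB.ori univ) (fun p _ => j1.loc p) (mapsTo_univ _ _) (y := (x₀, 1))
      ⟨trivial, trivial⟩ (p1.mono (singleton_subset_iff.2 ⟨trivial, mem_Ioi.2 one_pos⟩))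
    have p3 := ((p2.mono (s' := univ ×ˢ Iio 0) fun _ _ => ⟨trivial, trivial⟩).congr
      (f' := b ∘ Prod.map g fun s : ℝ => -s⁻¹) (isOpen_univ.prod isOpen_Iio)
      fun p hp => (hi p.1 p.2 hp.2).symm).of_comp_left pb (fun p _ => B.box.loc p)
      (fun p hp => ld g.isLocalDiffeomorph p (ne_of_lt hp.2)) (mapsTo_univ _ _)
    refine (Orx52.pos_or hR.isPreconnected (Orx52.oriOn B.ori _) (Orx52.oriOn B.ori univ)
      (fun y _ => g.isLocalDiffeomorph y) (mapsTo_univ _ _)).resolve_right fun h => ?_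
    have p4 := (cy g.isLocalDiffeomorph h).mono (s' := univ ×ˢ Iio 0)
      fun p hp => ⟨trivial, ne_of_lt hp.2⟩
    rw [show Orx52.cy (-oR) = -Orx52.cy oR from funext fun p => by
      simp [Orx52.cy, Sym24.pu]] at p4
    exact (p3.not_neg p4).le (show (x₀, -1) ∈ _ from ⟨trivial, mem_Iio.2 neg_one_lt_zero⟩)
  refine ⟨Y₀, f, _, g, ⟨h0, B.box, j0.span j1, ?_, ?_, fun p hp => ?_, fun p hp => ?_⟩, hB.ori, B.ori,
    hR, B.cy, hg, hB.smΦ, fun _ => rfl, B.ang, fun x θ hθ => ?_⟩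
  · rw [IsOE.span_source]
    ext y
    obtain ⟨⟨x, θ⟩, rfl⟩ := f.surjective y
    constructor
    · rintro ⟨p, hp⟩ ⟨q, hq, hq'⟩
      have h1 : npi * cay p.2 = cay q.2 := congrArg Prod.snd (f.injective (hp.trans hq'.symm))
      rw [show q.2 = 0 from hq.2] at h1
      exact cay_ne _ ((npi_npi _).symm.trans ((congrArg _ h1).trans c0))
    · intro h
      obtain ⟨s, hs⟩ := exists_cay (θ := npi * θ) fun e => h ⟨(x, 0), ⟨trivial, rfl⟩,
        congrArg f (Prod.ext rfl (mul_left_cancel (c0.trans e.symm)))⟩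
      exact ⟨(x, s), congrArg f (Prod.ext rfl ((congrArg _ hs).trans (npi_npi _)))⟩
  · rw [IsOE.span_target, range_comp, ((EquivLike.surjective α.symm).prodMap surjective_id).range_eq,
      image_univ, B'.rg]
    ext y
    refine not_congr ⟨fun h => ?_, ?_⟩
    · have h1 : Φ y = cay 0 := mul_left_cancel (h.trans c0.symm)
      obtain ⟨p, rfl⟩ := B.rg.ge fun e => cay_ne _ (h1.symm.trans e)
      exact ⟨p, ⟨trivial, cay_inj ((B.ang p).symm.trans h1)⟩, rfl⟩
    · rintro ⟨p, hp, rfl⟩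
      rw [B.ang, show p.2 = 0 from hp.2, c0]
  · show j0.span j1 _ = _
    rw [e0 p hp.ne, IsOE.span_apply, lo _ _ (neg_pos.2 (inv_lt_zero.2 hp)), ee]
  · show j0.span j1 _ = _
    rw [e0 p hp.ne', IsOE.span_apply, hi _ _ (neg_lt_zero.2 (inv_pos.2 hp)), ee]
    rfl
  · obtain ⟨s, hs⟩ := exists_cay (θ := npi * θ) fun e => hθ (npi_mul_eq.1 e)
    have h1 : f (x, θ) = (f ∘ Prod.map id ((npi * ·) ∘ cay)) (x, s) :=
      congrArg f (Prod.ext rfl ((congrArg _ hs).trans (npi_npi _)).symm)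
    show Φ (j0.span j1 _) = _
    rw [h1, IsOE.span_apply]
    exact mul_left_cancel ((B'.ang _).trans hs)

end Crest.Agent.X212.Box46
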